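import Vale.Agent.P186.Hyp

/-!
Transfer of thin triangles from the development to a Cayley graph.
-/

namespace Vale.Agent.Tri

open SimpleGraph

universe u v

variable {D : Type u} {L : LinkData D} {W : Dev L} {G : Type v} [Group G] {S : Set G}

/-- a Cayley graph lying over the one-skeleton of the development -/
structure Over (W : Dev L) (S : Set G) where
  π : G → W.V
  surj : Function.Surjective π
  one : π 1 = W.root
  adj : ∀ g h, (mulCayley S).Adj g h ↔ g ≠ h ∧ (π g = π h ∨ W.Adjv (π g) (π h))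

namespace Over
variable (O : Over W S)

theorem wk {g h : G} (p : (mulCayley S).Walk g h) : W.Wk p.length (O.π g) (O.π h) := by
  induction p with
  | nil => exact Dev.Wk.refl _
  | cons a _ ih => exact Dev.Wk.cons ((O.adj _ _).1 a).2 ih

theorem walk1 {g h : G} (e : O.π g = O.π h ∨ W.Adjv (O.π g) (O.π h)) :
    ∃ p : (mulCayley S).Walk g h, p.length ≤ 1 := by
  by_cases e' : g = h
  · subst e'; exact ⟨Walk.nil, by simp⟩
  · exact ⟨Walk.cons ((O.adj g h).2 ⟨e', e⟩) Walk.nil, by simp⟩

theorem walk {n : ℕ} {u v : W.V} (hw : W.Wk n u v) : ∀ g h, O.π g = u → O.π h = v →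
    ∃ p : (mulCayley S).Walk g h, p.length ≤ max n 1 := by
  induction hw with
  | refl =>
    intro g h e1 e2
    obtain ⟨p, hp⟩ := O.walk1 (Or.inl (e1.trans e2.symm))
    exact ⟨p, by omega⟩
  | @cons n u v w h1 h2 ih =>
    intro g h e1 e2
    cases n with
    | zero =>
      cases h2
      obtain ⟨p, hp⟩ := O.walk1 (g := g) (h := h) (by rw [e1, e2]; exact h1)
      exact ⟨p, by omega⟩
    | succ n =>
      obtain ⟨g', e3⟩ := O.surj v
      obtain ⟨p, hp⟩ := O.walk1 (g := g) (h := g') (by rw [e1, e3]; exact h1)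
      obtain ⟨q, hq⟩ := ih g' h e3 e2
      exact ⟨p.append q, by rw [Walk.length_append]; omega⟩

include O in
theorem conn : (mulCayley S).Connected := by
  refine ⟨fun g h => ?_⟩
  obtain ⟨p, _⟩ := O.walk (Dev.dV_spec (O.π g) (O.π h)) g h rfl rfl
  exact ⟨p⟩

theorem dist_le (g h : G) : (mulCayley S).dist g h ≤ max (Dev.dV (O.π g) (O.π h)) 1 := by
  obtain ⟨p, hp⟩ := O.walk (Dev.dV_spec (O.π g) (O.π h)) g h rfl rfl
  exact (SimpleGraph.dist_le p).trans hp

theorem le_dist (g h : G) : Dev.dV (O.π g) (O.π h) ≤ (mulCayley S).dist g h := by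
  obtain ⟨p, hp⟩ := O.conn.exists_walk_length_eq_dist g h
  rw [← hp]; exact (O.wk p).dV_le

theorem dist_eq {g h : G} (e : O.π g ≠ O.π h) :
    (mulCayley S).dist g h = Dev.dV (O.π g) (O.π h) := by
  have h1 := O.dist_le g h
  have h2 := O.le_dist g h
  have h3 : Dev.dV (O.π g) (O.π h) ≠ 0 := fun h => e (Dev.dV_eq_zero h)
  omega

theorem dist_le_one {g h : G} (e : O.π g = O.π h) : (mulCayley S).dist g h ≤ 1 := by
  obtain ⟨p, hp⟩ := O.walk1 (Or.inl e)
  exact (SimpleGraph.dist_le p).trans hp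

theorem ne_of_dist {g h : G} (e : 1 < (mulCayley S).dist g h) : O.π g ≠ O.π h := fun e' => by
  have := O.dist_le_one e'; omega

theorem lift {a b : G} {q : W.V}
    (h : Dev.dV (O.π a) q + Dev.dV q (O.π b) = Dev.dV (O.π a) (O.π b)) :
    ∃ g, O.π g = q ∧
      (mulCayley S).dist a g + (mulCayley S).dist g b = (mulCayley S).dist a b := by
  by_cases e1 : O.π a = q
  · exact ⟨a, e1, by simp⟩
  by_cases e2 : O.π b = q
  · exact ⟨b, e2, by simp⟩
  obtain ⟨g, rfl⟩ := O.surj q
  refine ⟨g, rfl, ?_⟩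
  have e3 : O.π a ≠ O.π b := by
    intro e
    have h0 : Dev.dV (O.π a) (O.π b) = 0 :=
      Nat.le_zero.1 (by rw [e]; exact (Dev.Wk.refl _).dV_le)
    exact e1 (Dev.dV_eq_zero (by omega))
  rw [O.dist_eq e1, O.dist_eq (Ne.symm e2), O.dist_eq e3, h]

include O in
theorem dist_mul (x g h : G) : (mulCayley S).dist (x * g) (x * h) = (mulCayley S).dist g h := by
  have key : ∀ x g h : G, (mulCayley S).dist (x * g) (x * h) ≤ (mulCayley S).dist g h := by
    intro x g h
    obtain ⟨p, hp⟩ := O.conn.exists_walk_length_eq_dist g h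
    let φ : mulCayley S →g mulCayley S := ⟨fun a => x * a, fun a => mulCayley_adj_mul_iff_right.2 a⟩
    have := SimpleGraph.dist_le (p.map φ)
    rwa [Walk.length_map, hp] at this
  refine le_antisymm (key x g h) ?_
  simpa using key x⁻¹ (x * g) (x * h)

variable {cone : D → Prop} (hf : L.NoFlat cone)
include O hf

theorem bigon1 {p q y : G}
    (hp : (mulCayley S).dist 1 p + (mulCayley S).dist p y = (mulCayley S).dist 1 y)
    (hq : (mulCayley S).dist 1 q + (mulCayley S).dist q y = (mulCayley S).dist 1 y)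
    (e : (mulCayley S).dist 1 p = (mulCayley S).dist 1 q) : (mulCayley S).dist p q ≤ 9 := by
  by_cases h1 : (mulCayley S).dist 1 p ≤ 1
  · have := O.conn.dist_triangle (u := p) (v := 1) (w := q)
    rw [dist_comm (u := p) (v := 1)] at this
    omega
  by_cases h2 : (mulCayley S).dist p y ≤ 1
  · have := O.conn.dist_triangle (u := p) (v := y) (w := q)
    rw [dist_comm (u := y) (v := q)] at this
    omega
  have a1 := O.dist_eq (O.ne_of_dist (g := 1) (h := p) (by omega))
  have a2 := O.dist_eq (O.ne_of_dist (g := 1) (h := q) (by omega))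
  have a3 := O.dist_eq (O.ne_of_dist (g := 1) (h := y) (by omega))
  have a4 := O.dist_eq (O.ne_of_dist (g := p) (h := y) (by omega))
  have a5 := O.dist_eq (O.ne_of_dist (g := q) (h := y) (by omega))
  rw [O.one] at a1 a2 a3
  have := Dev.bigon hf (p := O.π p) (q := O.π q) (y := O.π y) (by omega) (by omega)
    (by rw [← Dev.dV_root, ← Dev.dV_root]; omega)
  have := O.dist_le p q
  omega

theorem triangle1 {p y : G} (z : G)
    (hp : (mulCayley S).dist 1 p + (mulCayley S).dist p y = (mulCayley S).dist 1 y) :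
    ∃ q, (mulCayley S).dist p q ≤ 38 ∧
      ((mulCayley S).dist y q + (mulCayley S).dist q z = (mulCayley S).dist y z ∨
        (mulCayley S).dist 1 q + (mulCayley S).dist q z = (mulCayley S).dist 1 z) := by
  by_cases h1 : (mulCayley S).dist 1 p ≤ 1
  · exact ⟨1, by rw [dist_comm]; omega, Or.inr (by simp)⟩
  by_cases h2 : (mulCayley S).dist p y ≤ 1
  · exact ⟨y, by omega, Or.inl (by simp)⟩
  have a1 := O.dist_eq (O.ne_of_dist (g := 1) (h := p) (by omega))
  have a3 := O.dist_eq (O.ne_of_dist (g := 1) (h := y) (by omega))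
  have a4 := O.dist_eq (O.ne_of_dist (g := p) (h := y) (by omega))
  rw [O.one] at a1 a3
  obtain ⟨q, h3, h4⟩ := Dev.triangle hf (p := O.π p) (y := O.π y) (O.π z) (by omega)
  rcases h4 with h4 | h4
  · obtain ⟨g, rfl, hg⟩ := O.lift h4
    exact ⟨g, (O.dist_le p g).trans (by omega), Or.inl hg⟩
  · rw [← O.one] at h4
    obtain ⟨g, rfl, hg⟩ := O.lift h4
    exact ⟨g, (O.dist_le p g).trans (by omega), Or.inr hg⟩

theorem bigon {x p q y : G}
    (hp : (mulCayley S).dist x p + (mulCayley S).dist p y = (mulCayley S).dist x y)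
    (hq : (mulCayley S).dist x q + (mulCayley S).dist q y = (mulCayley S).dist x y)
    (e : (mulCayley S).dist x p = (mulCayley S).dist x q) : (mulCayley S).dist p q ≤ 9 := by
  simp only [← O.dist_mul x⁻¹ x, ← O.dist_mul x⁻¹ p, ← O.dist_mul x⁻¹ q, inv_mul_cancel]
    at hp hq e ⊢
  exact O.bigon1 hf hp hq e

theorem triangle {x p y : G} (z : G)
    (hp : (mulCayley S).dist x p + (mulCayley S).dist p y = (mulCayley S).dist x y) :
    ∃ q, (mulCayley S).dist p q ≤ 38 ∧
      ((mulCayley S).dist y q + (mulCayley S).dist q z = (mulCayley S).dist y z ∨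
        (mulCayley S).dist x q + (mulCayley S).dist q z = (mulCayley S).dist x z) := by
  simp only [← O.dist_mul x⁻¹ x, ← O.dist_mul x⁻¹ p, inv_mul_cancel] at hp
  obtain ⟨q, h1, h2⟩ := O.triangle1 hf (x⁻¹ * z) hp
  refine ⟨x * q, ?_, ?_⟩
  · simpa [← O.dist_mul x (x⁻¹ * p)] using h1
  · simpa [← O.dist_mul x (x⁻¹ * y), ← O.dist_mul x q, ← O.dist_mul x 1] using h2

omit hf in
theorem geo {x y : G} (p : (mulCayley S).Walk x y) (hp : p.length = (mulCayley S).dist x y)
    {i : ℕ} (hi : i ≤ p.length) : (mulCayley S).dist x (p.getVert i) = i ∧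
      (mulCayley S).dist x (p.getVert i) + (mulCayley S).dist (p.getVert i) y =
        (mulCayley S).dist x y := by
  have h1 := SimpleGraph.dist_le (p.take i)
  have h2 := SimpleGraph.dist_le (p.drop i)
  rw [Walk.take_length] at h1
  rw [Walk.drop_length] at h2
  have h3 := O.conn.dist_triangle (u := x) (v := p.getVert i) (w := y)
  omega

theorem near {x y w : G} (p : (mulCayley S).Walk x y) (hp : p.length = (mulCayley S).dist x y)
    (hw : (mulCayley S).dist x w + (mulCayley S).dist w y = (mulCayley S).dist x y) :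
    ∃ w' ∈ p.support, (mulCayley S).dist w w' ≤ 9 := by
  obtain ⟨h1, h2⟩ := O.geo p hp (i := (mulCayley S).dist x w) (by omega)
  exact ⟨_, p.getVert_mem_support _, O.bigon hf hw h2 h1.symm⟩

theorem thin {x y z : G} (p : (mulCayley S).Walk x y) (q : (mulCayley S).Walk y z)
    (r : (mulCayley S).Walk z x) (hp : p.length = (mulCayley S).dist x y)
    (hq : q.length = (mulCayley S).dist y z) (hr : r.length = (mulCayley S).dist z x)
    (v : G) (hv : v ∈ p.support) :
    ∃ w, (w ∈ q.support ∨ w ∈ r.support) ∧ (mulCayley S).dist v w ≤ 47 := by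
  obtain ⟨i, rfl, hi⟩ := Walk.mem_support_iff_exists_getVert.1 hv
  obtain ⟨w, h1, h2 | h2⟩ := O.triangle hf z (O.geo p hp hi).2
  · obtain ⟨w', h3, h4⟩ := O.near hf q hq h2
    exact ⟨w', Or.inl h3, O.conn.dist_triangle.trans (add_le_add h1 h4)⟩
  · rw [add_comm, dist_comm, dist_comm (u := x), dist_comm (u := x)] at h2
    obtain ⟨w', h3, h4⟩ := O.near hf r hr h2
    exact ⟨w', Or.inr h3, O.conn.dist_triangle.trans (add_le_add h1 h4)⟩

end Over

end Vale.Agent.Tri
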