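import Vale.Agent.P186.Cay
import Vale.Agent.P194.Main

/-!
The fundamental group of the triangle complex of groups and its Cayley graph.
-/

namespace Vale.Agent.Tri

open SimpleGraph

universe u

namespace FlagData
variable {Γ : Type u} [Group Γ] {D0 : Type u} (T : FlagData Γ D0) (W : Dev T.link)

/-- the group generated by the vertex group and the darts -/
abbrev Gp : Subgroup (T.Amb W) := Subgroup.closure (Set.range (T.iota W) ∪ Set.range (T.sigma W))

theorem iota_mem (g : Γ) : T.iota W g ∈ T.Gp W := Subgroup.subset_closure (Or.inl ⟨g, rfl⟩)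

theorem sigma_mem (d : D0) : T.sigma W d ∈ T.Gp W := Subgroup.subset_closure (Or.inr ⟨d, rfl⟩)

theorem free {g h : T.Amb W} (hg : g ∈ T.Gp W) (hh : h ∈ T.Gp W)
    (e : T.act W (W.root, 1) g = T.act W (W.root, 1) h) : g = h := by
  obtain ⟨F, F1, hF⟩ := W.exists_address
    (fun a a' => T.iota W a.1 * T.sigma W a.2 * (T.iota W a'.1)⁻¹)
    (fun a a' h => by
      have : a'.2 = T.r a.2 := h
      rw [this, T.sigma_r]; group)
    (by
      rintro a a' b b' - - ⟨p, hp⟩
      change _ * (T.iota W (T.kap a a' b).1 * T.sigma W (T.kap a a' b).2 *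
        (T.iota W (T.kap b b' a).1)⁻¹) = _
      rw [T.kap_eq hp, T.kap_eq (T.Cor_symm hp), hp.1, hp.2.1, hp.2.2]
      simp only [map_mul]
      have := T.sigma_rel W p
      calc _ = T.iota W a.1 * (T.sigma W (T.d p) * T.iota W (T.dl (T.f p)) *
            T.sigma W (T.d (T.c (T.f p)))) * (T.iota W (T.dl (T.f (T.c p))))⁻¹ *
            (T.iota W b'.1)⁻¹ := by group
        _ = _ := by rw [this]; group)
  let Ψ : W.V × Γ → T.Amb W := fun x => F x.1 * T.iota W x.2
  have key : ∀ g ∈ T.Gp W, ∀ x, Ψ (T.act W x g) = Ψ x * g := by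
    intro g hg
    induction hg using Subgroup.closure_induction with
    | mem g hg =>
      rcases hg with ⟨γ, rfl⟩ | ⟨d, rfl⟩
      · intro x; simp only [Ψ, act_iota, map_mul, mul_assoc]
      · intro x; simp only [Ψ, act_sigma, hF]; group
    | one => intro x; rw [act_one, mul_one]
    | mul g h _ _ h1 h2 => intro x; rw [act_mul, h2, h1, mul_assoc]
    | inv g _ h1 =>
      intro x
      have := h1 (T.act W x g⁻¹)
      rw [← act_mul, inv_mul_cancel, act_one] at this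
      rw [this]; group
  have h1 := key g hg (W.root, 1)
  rw [e, key h hh] at h1
  exact (mul_left_cancel h1).symm

theorem trans (v : W.V) : ∃ g ∈ T.Gp W, T.act W (W.root, 1) g = (v, 1) := by
  induction hn : W.lvl v generalizing v with
  | zero => exact ⟨1, one_mem _, by rw [W.lvl_zero hn]; rfl⟩
  | succ n ih =>
    obtain ⟨a, ha⟩ := W.ex_down (v := v) (by omega)
    have := W.lvl_down ha
    obtain ⟨g, hg, e⟩ := ih (W.step v a).1 (by omega)
    refine ⟨g * T.iota W (W.step v a).2.1 * T.sigma W (W.step v a).2.2 * T.iota W a.1⁻¹,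
      mul_mem (mul_mem (mul_mem hg (T.iota_mem W _)) (T.sigma_mem W _)) (T.iota_mem W _), ?_⟩
    simp only [act_mul, e, act_iota, act_sigma, one_mul, Prod.mk.eta, W.inv, mul_inv_cancel]

/-- the generating set -/
def gens : Set (T.Gp W) :=
  Subtype.val ⁻¹' (Set.range (T.iota W) ∪
    Set.range fun x : Γ × D0 × Γ => T.iota W x.1 * T.sigma W x.2.1 * T.iota W x.2.2)

theorem gens_finite [Finite Γ] [Finite D0] : (T.gens W).Finite :=
  ((Set.finite_range _).union (Set.finite_range _)).preimage Subtype.val_injective.injOn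

theorem closure_gens : Subgroup.closure (T.gens W) = ⊤ := by
  rw [eq_top_iff, ← Subgroup.closure_closure_coe_preimage]
  refine Subgroup.closure_mono (Set.preimage_mono (Set.union_subset_union_right _ ?_))
  rintro _ ⟨d, rfl⟩
  exact ⟨(1, d, 1), by simp⟩

theorem mem_gens (g h : T.Gp W) : g⁻¹ * h ∈ T.gens W ↔
    (T.act W (W.root, 1) g).1 = (T.act W (W.root, 1) h).1 ∨
      W.Adjv (T.act W (W.root, 1) g).1 (T.act W (W.root, 1) h).1 := by
  constructor
  · rintro (⟨γ, e⟩ | ⟨x, e⟩)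
    · left
      have : (h : T.Amb W) = g * T.iota W γ := by rw [e]; simp
      rw [this]; rfl
    · right
      have : (h : T.Amb W) = g * (T.iota W x.1 * T.sigma W x.2.1 * T.iota W x.2.2) := by
        simp only at e
        rw [e]; simp
      rw [this]; exact ⟨_, rfl⟩
  · rintro (e | ⟨a, e⟩)
    · refine Or.inl ⟨(T.act W (W.root, 1) g).2⁻¹ * (T.act W (W.root, 1) h).2, ?_⟩
      rw [Subgroup.coe_mul, Subgroup.coe_inv, eq_inv_mul_iff_mul_eq]
      refine T.free W (mul_mem g.2 (T.iota_mem W _)) h.2 ?_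
      rw [act_mul, act_iota, e]; simp
    · refine Or.inr ⟨((T.act W (W.root, 1) g).2⁻¹ * a.1, a.2,
        (W.step (T.act W (W.root, 1) g).1 a).2.1⁻¹ * (T.act W (W.root, 1) h).2), ?_⟩
      rw [Subgroup.coe_mul, Subgroup.coe_inv, eq_inv_mul_iff_mul_eq]
      refine T.free W (mul_mem g.2 (mul_mem (mul_mem (T.iota_mem W _) (T.sigma_mem W _))
        (T.iota_mem W _))) h.2 ?_
      simp only [act_mul, act_iota, act_sigma, mul_inv_cancel_left, Prod.mk.eta, e]

/-- the Cayley graph lies over the development -/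
def cover : Over W (T.gens W) where
  π g := (T.act W (W.root, 1) g).1
  surj v := by
    obtain ⟨g, hg, e⟩ := T.trans W v
    exact ⟨⟨g, hg⟩, congrArg Prod.fst e⟩
  one := rfl
  adj g h := by
    rw [mulCayley_adj, mem_gens, mem_gens]
    refine and_congr_right fun _ => ⟨fun e => e.elim id fun e => ?_, Or.inl⟩
    exact e.imp Eq.symm Dev.Adjv.symm

end FlagData

namespace GraphData
variable {Γ : Type u} [Group Γ] (X : GraphData Γ)

/-- darts of the cone vertices -/
def cone (a : Γ × Dt X.S X.T) : Prop := (∃ x, a.2 = .cS x) ∨ ∃ y, a.2 = .cT y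

theorem noFlat (h6 : ∀ e1 e2 e3 e4 e5 e6 : X.E, X.tgt e1 = X.tgt e2 → X.src e2 = X.src e3 →
      X.tgt e3 = X.tgt e4 → X.src e4 = X.src e5 → X.tgt e5 = X.tgt e6 → X.src e6 = X.src e1 →
      X.src e1 = X.src e2 ∨ X.tgt e2 = X.tgt e3 ∨ X.tgt e6 = X.tgt e1) :
    X.flags.link.NoFlat X.cone := by
  rintro ⟨a, a'⟩ ⟨b, b'⟩ ⟨c, c'⟩ ⟨d, d'⟩ ⟨e, e'⟩ ⟨f, f'⟩ ⟨⟨e1, k1⟩, h1, g1, i1⟩
    ⟨⟨e2, k2⟩, h2, g2, i2⟩ ⟨⟨e3, k3⟩, h3, g3, i3⟩ ⟨⟨e4, k4⟩, h4, g4, i4⟩ ⟨⟨e5, k5⟩, h5, g5, i5⟩
    ⟨⟨e6, k6⟩, h6', g6, i6⟩ n1 n2 n3 n4 n5 n6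
  simp only at h1 h2 h3 h4 h5 h6' g1 g2 g3 g4 g5 g6 i1 i2 i3 i4 i5 i6
  subst h1 h2 h3 h4 h5 h6'
  have hS : ∀ (g : Γ) (x : X.S) (a' : Γ × Dt X.S X.T), X.flags.link.rho (g, .gS x) a' →
      X.cone a' := fun g x a' h => Or.inl ⟨x, h⟩
  have hT : ∀ (g : Γ) (y : X.T) (a' : Γ × Dt X.S X.T), X.flags.link.rho (g, .gT y) a' →
      X.cone a' := fun g y a' h => Or.inr ⟨y, h⟩
  simp only [flags] at g1 g2 g3 g4 g5 g6 i1 i2 i3 i4 i5 i6 n1 n2 n3 n4 n5 n6
  cases k1 <;> cases k2 <;> simp only [fd, K6.c, reduceCtorEq] at g1 <;>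
    cases k3 <;> simp only [fd, K6.c, reduceCtorEq] at g2 <;>
    cases k4 <;> simp only [fd, K6.c, reduceCtorEq] at g3 <;>
    cases k5 <;> simp only [fd, K6.c, reduceCtorEq] at g4 <;>
    cases k6 <;> simp only [fd, K6.c, reduceCtorEq] at g5 g6
  · exfalso
    simp only [fd, fdl, mul_one, Dt.cS.injEq, Dt.cT.injEq] at *
    subst i1 i2 i3 i4 i5
    rcases h6 e1 e2 e3 e4 e5 e6 g1.symm g2.symm g3.symm g4.symm g5.symm g6.symm with h | h | h
    · exact n1 (by rw [h, g2])
    · exact n2 (by rw [h, g3])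
    · exact n6 (by rw [h, g1])
  · exfalso
    simp only [fd, fdl, mul_one, Dt.cS.injEq, Dt.cT.injEq] at *
    subst i1 i2 i3 i4 i5
    rcases h6 e2 e3 e4 e5 e6 e1 g2.symm g3.symm g4.symm g5.symm g6.symm g1.symm with h | h | h
    · exact n2 (by rw [h, g3])
    · exact n3 (by rw [h, g4])
    · exact n1 (by rw [h, g2])
  · exact ⟨by simp [cone, flags, fd], by simp [cone, flags, fd], Or.inl (hS _ _)⟩
  · exact ⟨by simp [cone, flags, fd], by simp [cone, flags, fd], Or.inr (hS _ _)⟩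
  · exact ⟨by simp [cone, flags, fd], by simp [cone, flags, fd], Or.inl (hT _ _)⟩
  · exact ⟨by simp [cone, flags, fd], by simp [cone, flags, fd], Or.inr (hT _ _)⟩

end GraphData

theorem not_rf {K : Type} [Field K] [Fintype K] {G : Type} [Group G] (ι : Kˣ × Kˣ →* G)
    (hι : Function.Injective ι)
    (h : ∀ (Q : Type) [Group Q] (φ : G →* Q), Function.Injective (φ.comp ι) →
      ∃ (H : Type) (_ : Group H), (Finite Q → Finite H) ∧
        ∃ a b : MonoidAlgebra K H, a * b = 1 ∧ b * a ≠ 1) : ¬ Group.ResiduallyFinite G := by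
  intro hG
  have h1 : ∀ γ : {γ : Kˣ × Kˣ // γ ≠ 1}, ∃ N : FiniteIndexNormalSubgroup G, ι γ.1 ∉ N :=
    fun γ => Group.exists_finiteIndexNormalSubgroup_notMem _ fun e =>
      γ.2 (hι (e.trans (map_one ι).symm))
  choose N hN using h1
  let M : Subgroup G := ⨅ γ, (N γ).toSubgroup
  have : M.Normal := Subgroup.normal_iInf_normal fun γ => inferInstance
  have : M.FiniteIndex := Subgroup.finiteIndex_iInf fun γ => inferInstance
  obtain ⟨H, _, hH, a, b, hab, hba⟩ := h (G ⧸ M) (QuotientGroup.mk' M) (by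
    rw [injective_iff_map_eq_one]
    intro γ e
    by_contra hγ
    have : ι γ ∈ M := (QuotientGroup.eq_one_iff _).1 e
    exact hN ⟨γ, hγ⟩ (Subgroup.mem_iInf.1 this ⟨γ, hγ⟩))
  have := hH inferInstance
  have : Finite (H →₀ K) := Finite.of_injective _ (DFunLike.coe_injective (F := H →₀ K))
  have : Finite (MonoidAlgebra K H) :=
    Finite.of_injective _ (MonoidAlgebra.coeffAddEquiv (R := K) (M := H)).injective
  exact hba (mul_eq_one_comm.1 hab)

theorem exists_hyperbolic : ∃ (G : Type) (_ : Group G) (S : Set G), S.Finite ∧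
    Subgroup.closure S = ⊤ ∧ (mulCayley S).Connected ∧
    (∀ (x y z : G) (p : (mulCayley S).Walk x y) (q : (mulCayley S).Walk y z)
      (r : (mulCayley S).Walk z x), p.length = (mulCayley S).dist x y →
      q.length = (mulCayley S).dist y z → r.length = (mulCayley S).dist z x →
      ∀ v ∈ p.support, ∃ w, (w ∈ q.support ∨ w ∈ r.support) ∧ (mulCayley S).dist v w ≤ 47) ∧
    ¬ Group.ResiduallyFinite G := by
  classical
  have : Fact (Nat.Prime 2) := ⟨Nat.prime_two⟩
  obtain ⟨K, _, _, _, X, _, _, _, o, J, h6, hJ, hχ⟩ := exists_data 2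
  let T := X.flags
  let W := dev T.link
  have : Finite (Dt X.S X.T) := by
    refine Finite.of_surjective (α := Bool ⊕ (X.S ⊕ X.T) ⊕ (X.S ⊕ X.T))
      (Sum.elim (fun b => if b then .sp else .sm)
        (Sum.elim (Sum.elim .cS .cT) (Sum.elim .gS .gT))) ?_
    rintro (_ | _ | x | y | x | y)
    exacts [⟨.inl true, rfl⟩, ⟨.inl false, rfl⟩, ⟨.inr (.inl (.inl x)), rfl⟩,
      ⟨.inr (.inl (.inr y)), rfl⟩, ⟨.inr (.inr (.inl x)), rfl⟩, ⟨.inr (.inr (.inr y)), rfl⟩]
  refine ⟨T.Gp W, inferInstance, T.gens W, T.gens_finite W, T.closure_gens W, (T.cover W).conn,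
    fun x y z p q r => (T.cover W).thin (X.noFlat h6) p q r, ?_⟩
  let ι : Kˣ × Kˣ →* T.Gp W := (T.iota W).codRestrict _ (T.iota_mem W)
  let σ : Dt X.S X.T → T.Gp W := fun d => ⟨T.sigma W d, T.sigma_mem W d⟩
  refine not_rf ι (fun g h e => T.iota_injective W (congrArg Subtype.val e)) fun Q _ φ hφ => ?_
  refine not_df_of_rel X o J hJ hχ (φ.comp ι) (φ (σ .sp)) (fun x => φ (σ (.cS x)))
    (fun y => φ (σ (.cT y))) hφ fun e => ?_
  simp only [MonoidHom.comp_apply, ← map_mul]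
  congr 1
  exact Subtype.ext (X.rel W e)

end Vale.Agent.Tri
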