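import Vale.Agent.P194.Group

/-!
Negative curvature of the development: projections towards the root contract.
-/

namespace Vale.Agent.Tri

universe u

variable {D : Type u}

/-- no three consecutive flat vertices -/
def LinkData.NoFlat (L : LinkData D) (cone : D → Prop) : Prop :=
  ∀ a b c d e f, L.adj a b → L.adj b c → L.adj c d → L.adj d e → L.adj e f → L.adj f a →
    a ≠ c → b ≠ d → c ≠ e → d ≠ f → e ≠ a → f ≠ b →
    ¬ cone a ∧ ¬ cone d ∧ ((∀ a', L.rho a a' → cone a') ∨ (∀ d', L.rho d d' → cone d'))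

namespace Dev
variable {L : LinkData D} (W : Dev L)

def Dn (u v : W.V) : Prop := ∃ a, W.down u a ∧ (W.step u a).1 = v
def HS (u v : W.V) : Prop := ∃ a, L.IsH W.down u a ∧ (W.step u a).1 = v
def Lz (u v : W.V) : Prop := u = v ∨ W.HS u v
def Adjv (u v : W.V) : Prop := ∃ a, (W.step u a).1 = v

inductive Hor : ℕ → W.V → W.V → Prop
  | refl (v) : Hor 0 v v
  | cons {n u v w} : W.Lz u v → Hor n v w → Hor (n + 1) u w

inductive Dns : ℕ → W.V → W.V → Prop
  | refl (v) : Dns 0 v v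
  | cons {n u v w} : W.Dn u v → Dns n v w → Dns (n + 1) u w

inductive Wk : ℕ → W.V → W.V → Prop
  | refl (v) : Wk 0 v v
  | cons {n u v w} : (u = v ∨ W.Adjv u v) → Wk n v w → Wk (n + 1) u w

variable {W}

theorem Adjv.symm {u v : W.V} (h : W.Adjv u v) : W.Adjv v u := by
  obtain ⟨a, rfl⟩ := h
  exact ⟨_, W.inv1 u a⟩

theorem Dn.lvl {u v : W.V} (h : W.Dn u v) : W.lvl v + 1 = W.lvl u := by
  obtain ⟨a, ha, rfl⟩ := h
  exact W.lvl_down ha

theorem HS.lvl {u v : W.V} (h : W.HS u v) : W.lvl v = W.lvl u := by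
  obtain ⟨a, ha, rfl⟩ := h
  exact W.lvl_hor ha

theorem HS.symm {u v : W.V} (h : W.HS u v) : W.HS v u := by
  obtain ⟨a, ha, rfl⟩ := h
  exact ⟨_, W.H_of_lvl (by rw [W.inv1, W.lvl_hor ha]), W.inv1 u a⟩

theorem Lz.symm {u v : W.V} (h : W.Lz u v) : W.Lz v u := h.imp Eq.symm HS.symm

theorem Lz.lvl {u v : W.V} (h : W.Lz u v) : W.lvl v = W.lvl u := by
  rcases h with rfl | h
  · rfl
  · exact h.lvl

theorem Adjv.cases {u v : W.V} (h : W.Adjv u v) : W.Dn u v ∨ W.HS u v ∨ W.Dn v u := by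
  obtain ⟨a, rfl⟩ := h
  rcases W.cases3 u a with h | h | h
  · exact Or.inl ⟨a, h, rfl⟩
  · exact Or.inr (Or.inl ⟨a, h, rfl⟩)
  · exact Or.inr (Or.inr ⟨_, W.down_of_lvl (by rw [W.inv1, W.lvl_up h]; omega), W.inv1 u a⟩)

theorem strip {u : W.V} {δ β : D} (hδ : W.down u δ) (hβ : L.IsH W.down u β) :
    ∃ δn, W.down (W.step u β).1 δn ∧ L.adj (W.step u β).2 δn ∧
      ((W.step u δ).1 = (W.step (W.step u β).1 δn).1 ∨
        ∃ δ1 η a, W.down u δ1 ∧ L.adj δ δ1 ∧ L.adj δ1 β ∧ L.IsH W.down (W.step u δ).1 η ∧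
          L.adj (W.step u δ).2 η ∧ (W.step (W.step u δ).1 η).1 = (W.step (W.step u β).1 δn).1 ∧
          L.IsU W.down (W.step (W.step u β).1 δn).1 a ∧ L.adj (W.step (W.step u δ).1 η).2 a ∧
          L.adj a (W.step (W.step u β).1 δn).2) := by
  obtain ⟨_, δ1, h1, h1β⟩ := id hβ
  have hβ1 := L.adj_symm h1β
  have t := W.tri u β δ1 hβ1
  have l1 := W.lvl_down h1
  have l0 := W.lvl_down hδ
  refine ⟨L.kap β (W.step u β).2 δ1, W.down_of_lvl ?_, L.k1 (W.rho u β) hβ1, ?_⟩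
  · rw [t, W.lvl_hor hβ]; simp only; omega
  · rw [t]
    by_cases e : δ = δ1
    · left; rw [e]
    · right
      have hδ1 := W.clique hδ h1 e
      have t2 := W.tri u δ δ1 hδ1
      refine ⟨δ1, L.kap δ (W.step u δ).2 δ1, (W.step u δ1).2, h1, hδ1, h1β, W.H_of_lvl ?_,
        L.k1 (W.rho u δ) hδ1, by rw [t2], W.U_of_lvl ?_, ?_, L.k1 (W.rho u δ1) h1β⟩
      · rw [t2]; simp only; omega
      · simp only; rw [W.inv1]; omega
      · rw [t2]; exact L.adj_symm (L.k1 (W.rho u δ1) (L.adj_symm hδ1))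

theorem Dn.lz {u v w : W.V} (h : W.Dn u v) (h' : W.Dn u w) : W.Lz v w := by
  obtain ⟨a, ha, rfl⟩ := h
  obtain ⟨b, hb, rfl⟩ := h'
  by_cases e : a = b
  · left; rw [e]
  · have hab := W.clique ha hb e
    refine Or.inr ⟨_, W.H_of_lvl ?_, W.tri1 u hab⟩
    rw [W.tri1 u hab]
    have := W.lvl_down ha; have := W.lvl_down hb; omega

theorem Lz.proj {u u' v : W.V} (h : W.Lz u u') (h' : W.Dn u v) : ∃ v', W.Dn u' v' ∧ W.Lz v v' := by
  rcases h with rfl | ⟨β, hβ, rfl⟩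
  · exact ⟨v, h', Or.inl rfl⟩
  · obtain ⟨δ, hδ, rfl⟩ := h'
    obtain ⟨δn, h1, _, h2⟩ := strip hδ hβ
    refine ⟨_, ⟨δn, h1, rfl⟩, ?_⟩
    rcases h2 with h2 | ⟨_, η, _, _, _, _, h3, _, h4, _⟩
    · exact Or.inl h2
    · exact Or.inr ⟨η, h3, h4⟩

theorem Hor.proj {n : ℕ} {u u' v : W.V} (h : W.Hor n u u') (h' : W.Dn u v) :
    ∃ v', W.Dn u' v' ∧ W.Hor n v v' := by
  induction h generalizing v with
  | refl => exact ⟨v, h', Hor.refl v⟩
  | cons h1 _ ih =>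
    obtain ⟨v1, h2, h3⟩ := h1.proj h'
    obtain ⟨v', h4, h5⟩ := ih h2
    exact ⟨v', h4, Hor.cons h3 h5⟩

theorem Hor.append {n m : ℕ} {u v w : W.V} (h : W.Hor n u v) (h' : W.Hor m v w) :
    W.Hor (n + m) u w := by
  induction h with
  | refl => simpa using h'
  | cons h1 _ ih => rw [Nat.add_right_comm]; exact Hor.cons h1 (ih h')

theorem Hor.stay (n : ℕ) (v : W.V) : W.Hor n v v := by
  induction n with
  | zero => exact Hor.refl v
  | succ n ih => exact Hor.cons (Or.inl rfl) ih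

theorem Hor.mono {n m : ℕ} {u v : W.V} (h : W.Hor n u v) (hnm : n ≤ m) : W.Hor m u v := by
  obtain ⟨k, rfl⟩ := Nat.exists_eq_add_of_le hnm
  exact h.append (Hor.stay k v)

theorem Hor.one {u v : W.V} (h : W.Lz u v) : W.Hor 1 u v := Hor.cons h (Hor.refl v)

theorem Hor.split {n m : ℕ} {u w : W.V} (h : W.Hor (n + m) u w) :
    ∃ v, W.Hor n u v ∧ W.Hor m v w := by
  induction n generalizing u with
  | zero => exact ⟨u, Hor.refl u, by simpa using h⟩
  | succ n ih =>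
    rw [Nat.add_right_comm] at h
    cases h with
    | cons h1 h2 =>
      obtain ⟨v, h3, h4⟩ := ih h2
      exact ⟨v, Hor.cons h1 h3, h4⟩

theorem Hor.lvl {n : ℕ} {u v : W.V} (h : W.Hor n u v) : W.lvl v = W.lvl u := by
  induction h with
  | refl => rfl
  | cons h1 _ ih => rw [ih, h1.lvl]

theorem hor3 {a b c d e : W.V} (h1 : W.Lz a b) (h2 : W.Lz b c) (h3 : W.Lz c d) (h4 : W.Lz d e)
    (h : a = b ∨ b = c ∨ c = d ∨ d = e) : W.Hor 3 a e := by
  rcases h with rfl | rfl | rfl | rfl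
  · exact Hor.cons h2 (Hor.cons h3 (Hor.one h4))
  · exact Hor.cons h1 (Hor.cons h3 (Hor.one h4))
  · exact Hor.cons h1 (Hor.cons h2 (Hor.one h4))
  · exact Hor.cons h1 (Hor.cons h2 (Hor.one h3))

theorem six {cone : D → Prop} (hf : L.NoFlat cone) {v : W.V} {a b c d e f : D}
    (ha : L.IsH W.down v a) (hb : L.IsU W.down v b) (hc : L.IsU W.down v c)
    (hd : L.IsH W.down v d) (he : W.down v e) (hf' : W.down v f)
    (h1 : L.adj a b) (h2 : L.adj b c) (h3 : L.adj c d) (h4 : L.adj d e) (h5 : L.adj e f)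
    (h6 : L.adj f a) :
    ¬ cone a ∧ ¬ cone d ∧ ((∀ a', L.rho a a' → cone a') ∨ (∀ d', L.rho d d' → cone d')) :=
  hf a b c d e f h1 h2 h3 h4 h5 h6 (fun h => hc.2 (h ▸ ha)) (fun h => hb.2 (h ▸ hd))
    (fun h => hc.1 (h ▸ he)) (fun h => hd.1 (h ▸ hf')) (fun h => ha.1 (h ▸ he))
    (fun h => hb.1 (h ▸ hf'))

theorem rev_U {u : W.V} {δ : D} (h : W.down u δ) : L.IsU W.down (W.step u δ).1 (W.step u δ).2 :=
  W.U_of_lvl (by rw [W.inv1]; have := W.lvl_down h; omega)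

theorem rev_H {u : W.V} {δ : D} (h : L.IsH W.down u δ) :
    L.IsH W.down (W.step u δ).1 (W.step u δ).2 :=
  W.H_of_lvl (by rw [W.inv1, W.lvl_hor h])

theorem key4 {cone : D → Prop} (hf : L.NoFlat cone) {u u' v w : W.V} (h : W.Hor 4 u u')
    (hv : W.Dn u v) (hw : W.Dn v w) : ∃ v' w', W.Dn u' v' ∧ W.Dn v' w' ∧ W.Hor 3 w w' := by
  have easy1 : W.Hor 3 u u' → ∃ v' w', W.Dn u' v' ∧ W.Dn v' w' ∧ W.Hor 3 w w' := fun h3 => by
    obtain ⟨v', h1, h2⟩ := h3.proj hv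
    obtain ⟨w', h4, h5⟩ := h2.proj hw
    exact ⟨v', w', h1, h4, h5⟩
  have easy2 : ∀ v', W.Dn u' v' → W.Hor 3 v v' →
      ∃ v' w', W.Dn u' v' ∧ W.Dn v' w' ∧ W.Hor 3 w w' := fun v' h1 h2 => by
    obtain ⟨w', h4, h5⟩ := h2.proj hw
    exact ⟨v', w', h1, h4, h5⟩
  cases h with | @cons _ _ u1 _ s1 h =>
  cases h with | @cons _ _ u2 _ s2 h =>
  cases h with | @cons _ _ u3 _ s3 h =>
  cases h with | @cons _ _ u4 _ s4 h =>
  cases h
  by_cases hE : u = u1 ∨ u1 = u2 ∨ u2 = u3 ∨ u3 = u'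
  · exact easy1 (hor3 s1 s2 s3 s4 hE)
  simp only [not_or] at hE
  obtain ⟨β1, hβ1, rfl⟩ := s1.resolve_left hE.1
  obtain ⟨β2, hβ2, rfl⟩ := s2.resolve_left hE.2.1
  obtain ⟨β3, hβ3, rfl⟩ := s3.resolve_left hE.2.2.1
  obtain ⟨β4, hβ4, rfl⟩ := s4.resolve_left hE.2.2.2
  obtain ⟨δ0, hδ0, rfl⟩ := hv
  obtain ⟨δ1, hδ1, -, m1⟩ := strip hδ0 hβ1
  obtain ⟨δ2, hδ2, -, m2⟩ := strip hδ1 hβ2
  obtain ⟨δ3, hδ3, -, m3⟩ := strip hδ2 hβ3
  obtain ⟨δ4, hδ4, -, m4⟩ := strip hδ3 hβ4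
  have r1 := rev_U hδ1
  have r2 := rev_U hδ2
  have r3 := rev_U hδ3
  have hd4 : W.Dn _ _ := ⟨δ4, hδ4, rfl⟩
  generalize W.step u δ0 = x0 at *
  generalize W.step (W.step u β1).1 δ1 = x1 at *
  generalize W.step (W.step (W.step u β1).1 β2).1 δ2 = x2 at *
  generalize W.step (W.step (W.step (W.step u β1).1 β2).1 β3).1 δ3 = x3 at *
  generalize W.step (W.step (W.step (W.step (W.step u β1).1 β2).1 β3).1 β4).1 δ4 = x4 at *
  have z1 : W.Lz x0.1 x1.1 := m1.imp id fun ⟨_, η, _, _, _, _, h3, _, h4, _⟩ => ⟨η, h3, h4⟩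
  have z2 : W.Lz x1.1 x2.1 := m2.imp id fun ⟨_, η, _, _, _, _, h3, _, h4, _⟩ => ⟨η, h3, h4⟩
  have z3 : W.Lz x2.1 x3.1 := m3.imp id fun ⟨_, η, _, _, _, _, h3, _, h4, _⟩ => ⟨η, h3, h4⟩
  have z4 : W.Lz x3.1 x4.1 := m4.imp id fun ⟨_, η, _, _, _, _, h3, _, h4, _⟩ => ⟨η, h3, h4⟩
  by_cases hE2 : x0.1 = x1.1 ∨ x1.1 = x2.1 ∨ x2.1 = x3.1 ∨ x3.1 = x4.1
  · exact easy2 _ hd4 (hor3 z1 z2 z3 z4 hE2)
  simp only [not_or] at hE2
  obtain ⟨-, η1, a1, -, -, -, H1, -, e1, U1, A1, B1⟩ := m1.resolve_left hE2.1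
  obtain ⟨-, η2, a2, -, -, -, H2, C2, e2, U2, A2, B2⟩ := m2.resolve_left hE2.2.1
  obtain ⟨-, η3, a3, -, -, -, H3, C3, e3, U3, A3, B3⟩ := m3.resolve_left hE2.2.2.1
  obtain ⟨-, η4, a4, -, -, -, H4, C4, e4, -, -, -⟩ := m4.resolve_left hE2.2.2.2
  obtain ⟨ε0, hε0, rfl⟩ := hw
  obtain ⟨ε1, hε1, F1, n1⟩ := strip hε0 H1
  have R1 := rev_H H1
  rw [e1] at hε1 n1 R1
  obtain ⟨ε2, hε2, F2, n2⟩ := strip hε1 H2
  have R2 := rev_H H2
  rw [e2] at hε2 n2 R2
  obtain ⟨ε3, hε3, F3, n3⟩ := strip hε2 H3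
  have R3 := rev_H H3
  rw [e3] at hε3 n3 R3
  obtain ⟨ε4, hε4, -, n4⟩ := strip hε3 H4
  rw [e4] at hε4 n4
  have y1 : W.Lz _ _ := n1.imp id fun ⟨_, η, _, _, _, _, h3, _, h4, _⟩ => ⟨η, h3, h4⟩
  have y2 : W.Lz _ _ := n2.imp id fun ⟨_, η, _, _, _, _, h3, _, h4, _⟩ => ⟨η, h3, h4⟩
  have y3 : W.Lz _ _ := n3.imp id fun ⟨_, η, _, _, _, _, h3, _, h4, _⟩ => ⟨η, h3, h4⟩
  have y4 : W.Lz _ _ := n4.imp id fun ⟨_, η, _, _, _, _, h3, _, h4, _⟩ => ⟨η, h3, h4⟩
  refine ⟨_, _, hd4, ⟨ε4, hε4, rfl⟩, hor3 y1 y2 y3 y4 ?_⟩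
  by_contra hE3
  simp only [not_or] at hE3
  obtain ⟨f2, -, -, g2, i2, j2, -⟩ := n2.resolve_left hE3.2.1
  obtain ⟨f3, -, -, g3, i3, j3, -⟩ := n3.resolve_left hE3.2.2.1
  obtain ⟨f4, -, -, g4, i4, j4, -⟩ := n4.resolve_left hE3.2.2.2
  have c1 := six hf R1 U1 r1 H2 g2 hε1 A1 B1 C2 (L.adj_symm j2) (L.adj_symm i2) (L.adj_symm F1)
  have c2 := six hf R2 U2 r2 H3 g3 hε2 A2 B2 C3 (L.adj_symm j3) (L.adj_symm i3) (L.adj_symm F2)
  have c3 := six hf R3 U3 r3 H4 g4 hε3 A3 B3 C4 (L.adj_symm j4) (L.adj_symm i4) (L.adj_symm F3)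
  rcases c2.2.2 with h | h
  · exact c1.2.1 (h _ (L.rho_symm (W.rho _ _)))
  · exact c3.1 (h _ (W.rho _ _))

theorem contract {cone : D → Prop} (hf : L.NoFlat cone) (j : ℕ) {u u' v w : W.V}
    (h : W.Hor (4 * j) u u') (hv : W.Dn u v) (hw : W.Dn v w) :
    ∃ v' w', W.Dn u' v' ∧ W.Dn v' w' ∧ W.Hor (3 * j) w w' := by
  induction j generalizing u v w with
  | zero => cases h; exact ⟨v, w, hv, hw, Hor.refl w⟩
  | succ j ih =>
    rw [show 4 * (j + 1) = 4 + 4 * j by ring] at h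
    obtain ⟨u1, h1, h2⟩ := h.split
    obtain ⟨v1, w1, h3, h4, h5⟩ := key4 hf h1 hv hw
    obtain ⟨v', w', h6, h7, h8⟩ := ih h2 h3 h4
    exact ⟨v', w', h6, h7, by rw [show 3 * (j + 1) = 3 + 3 * j by ring]; exact h5.append h8⟩

theorem Hor.down1 {n : ℕ} {u u' v v' : W.V} (h : W.Hor n u u') (hv : W.Dn u v) (hv' : W.Dn u' v') :
    W.Hor (n + 1) v v' := by
  obtain ⟨v'', h1, h2⟩ := h.proj hv
  exact h2.append (Hor.one (h1.lz hv'))

theorem fellow {cone : D → Prop} (hf : L.NoFlat cone) (j : ℕ) (hj : 2 ≤ j) (k : ℕ) :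
    ∀ {u u' v v' : W.V}, W.Hor (4 * j) u u' → W.Dns k u v → W.Dns k u' v' →
      W.Hor (4 * j + 1) v v' := by
  induction k using Nat.strong_induction_on with
  | _ k ih =>
    intro u u' v v' h h1 h2
    cases h1 with
    | refl => cases h2; exact h.mono (by omega)
    | cons a1 h1 =>
      cases h2 with | cons b1 h2 =>
      cases h1 with
      | refl => cases h2; exact h.down1 a1 b1
      | cons a2 h1 =>
        cases h2 with | cons b2 h2 =>
        obtain ⟨v'', w'', c1, c2, c3⟩ := contract hf j h a1 a2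
        have := c3.append ((Hor.one (c1.lz b1)).down1 c2 b2)
        exact ih _ (by omega) (this.mono (by omega)) h1 h2

theorem Dns.lvl {n : ℕ} {u v : W.V} (h : W.Dns n u v) : W.lvl v + n = W.lvl u := by
  induction h with
  | refl => rfl
  | cons h1 _ ih => have := h1.lvl; omega

theorem Dns.append {n m : ℕ} {u v w : W.V} (h : W.Dns n u v) (h' : W.Dns m v w) :
    W.Dns (n + m) u w := by
  induction h with
  | refl => simpa using h'
  | cons h1 _ ih => rw [Nat.add_right_comm]; exact Dns.cons h1 (ih h')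

theorem Dns.split {n m : ℕ} {u w : W.V} (h : W.Dns (n + m) u w) :
    ∃ v, W.Dns n u v ∧ W.Dns m v w := by
  induction n generalizing u with
  | zero => exact ⟨u, Dns.refl u, by simpa using h⟩
  | succ n ih =>
    rw [Nat.add_right_comm] at h
    cases h with
    | cons h1 h2 =>
      obtain ⟨v, h3, h4⟩ := ih h2
      exact ⟨v, Dns.cons h1 h3, h4⟩

theorem exists_Dns (n : ℕ) : ∀ u : W.V, n ≤ W.lvl u → ∃ v, W.Dns n u v := by
  induction n with
  | zero => exact fun u _ => ⟨u, Dns.refl u⟩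
  | succ n ih =>
    intro u hu
    obtain ⟨a, ha⟩ := W.ex_down (v := u) (by omega)
    have := W.lvl_down ha
    obtain ⟨v, hv⟩ := ih (W.step u a).1 (by omega)
    exact ⟨v, Dns.cons ⟨a, ha, rfl⟩ hv⟩

theorem Wk.append {n m : ℕ} {u v w : W.V} (h : W.Wk n u v) (h' : W.Wk m v w) :
    W.Wk (n + m) u w := by
  induction h with
  | refl => simpa using h'
  | cons h1 _ ih => rw [Nat.add_right_comm]; exact Wk.cons h1 (ih h')

theorem Wk.symm {n : ℕ} {u v : W.V} (h : W.Wk n u v) : W.Wk n v u := by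
  induction h with
  | refl => exact Wk.refl _
  | cons h1 _ ih => exact ih.append (Wk.cons (h1.imp Eq.symm Adjv.symm) (Wk.refl _))

theorem Dns.wk {n : ℕ} {u v : W.V} (h : W.Dns n u v) : W.Wk n u v := by
  induction h with
  | refl => exact Wk.refl _
  | cons h1 _ ih => obtain ⟨a, _, e⟩ := h1; exact Wk.cons (Or.inr ⟨a, e⟩) ih

theorem Hor.wk {n : ℕ} {u v : W.V} (h : W.Hor n u v) : W.Wk n u v := by
  induction h with
  | refl => exact Wk.refl _
  | cons h1 _ ih => exact Wk.cons (h1.imp id fun ⟨a, _, e⟩ => ⟨a, e⟩) ih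

theorem Wk.lvl {n : ℕ} {u v : W.V} (h : W.Wk n u v) : W.lvl u ≤ W.lvl v + n := by
  induction h with
  | refl => rfl
  | cons h1 _ ih =>
    rcases h1 with rfl | h1
    · omega
    · rcases h1.cases with h | h | h <;> (have := h.lvl; omega)

theorem Wk.dns {n : ℕ} {u v : W.V} (h : W.Wk n u v) (e : W.lvl u = W.lvl v + n) : W.Dns n u v := by
  induction h with
  | refl => exact Dns.refl _
  | cons h1 h2 ih =>
    have := h2.lvl
    rcases h1 with rfl | h1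
    · omega
    · rcases h1.cases with h | h | h
      · exact Dns.cons h (ih (by have := h.lvl; omega))
      · have := h.lvl; omega
      · have := h.lvl; omega

theorem wk_root (u : W.V) : W.Wk (W.lvl u) u W.root := by
  obtain ⟨v, hv⟩ := exists_Dns (W.lvl u) u le_rfl
  have := hv.lvl
  rw [← W.lvl_zero (v := v) (by omega)]
  exact hv.wk

theorem wk_exists (u v : W.V) : ∃ n, W.Wk n u v := ⟨_, (wk_root u).append (wk_root v).symm⟩

open Classical in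
/-- the distance in the one-skeleton -/
noncomputable def dV (u v : W.V) : ℕ := Nat.find (wk_exists u v)

theorem dV_spec (u v : W.V) : W.Wk (dV u v) u v := by
  classical exact Nat.find_spec (wk_exists u v)

theorem Wk.dV_le {n : ℕ} {u v : W.V} (h : W.Wk n u v) : dV u v ≤ n := by
  classical exact Nat.find_min' (wk_exists u v) h

theorem dV_root (u : W.V) : dV W.root u = W.lvl u := by
  apply le_antisymm (wk_root u).symm.dV_le
  have := (dV_spec W.root u).symm.lvl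
  rw [W.lvl_root] at this; omega

theorem dV_eq_zero {u v : W.V} (h : dV u v = 0) : u = v := by
  have := dV_spec u v
  rw [h] at this
  cases this; rfl

theorem dV_tri (u v w : W.V) : dV u w ≤ dV u v + dV v w :=
  ((dV_spec u v).append (dV_spec v w)).dV_le

theorem Lz.push {a : ℕ} {y y1 y' : W.V} (h : W.Lz y y1) (h' : W.Dns a y1 y') :
    ∃ y'', W.Dns a y y'' ∧ W.Lz y'' y' := by
  induction h' generalizing y with
  | refl => exact ⟨y, Dns.refl y, h⟩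
  | cons h1 _ ih =>
    obtain ⟨w, h2, h3⟩ := h.symm.proj h1
    obtain ⟨y'', h4, h5⟩ := ih h3.symm
    exact ⟨y'', Dns.cons h2 h4, h5⟩

theorem Wk.decomp {n : ℕ} {y z : W.V} (h : W.Wk n y z) :
    ∃ a b c y' z', a + b + c ≤ n ∧ W.Dns a y y' ∧ W.Hor b y' z' ∧ W.Dns c z z' := by
  induction h with
  | refl v => exact ⟨0, 0, 0, v, v, le_rfl, Dns.refl v, Hor.refl v, Dns.refl v⟩
  | cons h1 _ ih =>
    obtain ⟨a, b, c, y', z', hn, ha, hb, hc⟩ := ih
    rcases h1 with rfl | h1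
    · exact ⟨a, b, c, y', z', by omega, ha, hb, hc⟩
    · rcases h1.cases with h | h | h
      · exact ⟨a + 1, b, c, y', z', by omega, Dns.cons h ha, hb, hc⟩
      · obtain ⟨y'', h2, h3⟩ := Lz.push (Or.inr h) ha
        exact ⟨a, b + 1, c, y'', z', by omega, h2, Hor.cons h3 hb, hc⟩
      · cases ha with
        | refl =>
          obtain ⟨w, h2, h3⟩ := hb.proj h
          exact ⟨0, b, c + 1, _, w, by omega, Dns.refl _, h3,
            hc.append (Dns.cons h2 (Dns.refl _))⟩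
        | cons h4 ha =>
          obtain ⟨y'', h2, h3⟩ := Lz.push (h.lz h4) ha
          exact ⟨_, b + 1, c, y'', z', by omega, h2, Hor.cons h3 hb, hc⟩

theorem decomp {cone : D → Prop} (hf : L.NoFlat cone) (y z : W.V) :
    ∃ a b c y' z', a + b + c ≤ dV y z ∧ b ≤ 28 ∧ W.Dns a y y' ∧ W.Hor b y' z' ∧ W.Dns c z z' := by
  obtain ⟨a, b, c, y', z', hn, ha, hb, hc⟩ := (dV_spec y z).decomp
  refine ⟨a, b, c, y', z', hn, ?_, ha, hb, hc⟩
  have h1 : dV y z ≤ a + dV y' z' + c :=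
    ((ha.wk.append (dV_spec y' z')).append hc.wk.symm).dV_le
  by_cases hl : W.lvl y' ≤ 1
  · have := ((wk_root y').append (wk_root z').symm).dV_le
    have := hb.lvl
    omega
  · obtain ⟨w, hw⟩ := exists_Dns 2 y' (by omega)
    cases hw with | cons h2 hw =>
    cases hw with | cons h3 hw =>
    cases hw
    obtain ⟨v', w', h4, h5, h6⟩ := contract hf ((b + 3) / 4) (hb.mono (by omega)) h2 h3
    have := (((Dns.cons h2 (Dns.cons h3 (Dns.refl _))).wk.append h6.wk).append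
      (Dns.cons h4 (Dns.cons h5 (Dns.refl _))).wk.symm).dV_le
    omega

theorem btw_dns {p y : W.V} (h : dV W.root p + dV p y = dV W.root y) :
    W.Dns (W.lvl y - W.lvl p) y p := by
  rw [dV_root, dV_root] at h
  rw [show W.lvl y - W.lvl p = dV p y by omega]
  exact (dV_spec p y).symm.dns h.symm

theorem dns_btw {k : ℕ} {p y : W.V} (h : W.Dns k y p) :
    dV W.root p + dV p y = dV W.root y := by
  apply le_antisymm _ (dV_tri _ _ _)
  rw [dV_root, dV_root]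
  have := h.lvl
  have := h.wk.symm.dV_le
  omega

theorem bigon {cone : D → Prop} (hf : L.NoFlat cone) {p q y : W.V}
    (hp : dV W.root p + dV p y = dV W.root y) (hq : dV W.root q + dV q y = dV W.root y)
    (e : W.lvl p = W.lvl q) : dV p q ≤ 9 :=
  (fellow hf 2 le_rfl _ (Hor.stay _ y) (btw_dns hp) (e ▸ btw_dns hq)).wk.dV_le

theorem triangle {cone : D → Prop} (hf : L.NoFlat cone) {p y : W.V} (z : W.V)
    (hp : dV W.root p + dV p y = dV W.root y) :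
    ∃ q, dV p q ≤ 38 ∧ (dV y q + dV q z = dV y z ∨ dV W.root q + dV q z = dV W.root z) := by
  obtain ⟨a, b, c, y', z', hn, hb28, ha, hb, hc⟩ := decomp hf y z
  have h1 := btw_dns hp
  generalize W.lvl y - W.lvl p = k at h1
  by_cases hk : k ≤ a
  · obtain ⟨m, rfl⟩ := Nat.exists_eq_add_of_le hk
    obtain ⟨τ, h2, h3⟩ := ha.split
    refine ⟨τ, ((fellow hf 2 le_rfl _ (Hor.stay _ y) h1 h2).wk.dV_le).trans (by omega),
      Or.inl (le_antisymm ?_ (dV_tri _ _ _))⟩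
    have := h2.wk.dV_le
    have := ((h3.wk.append hb.wk).append hc.wk.symm).dV_le
    omega
  · obtain ⟨m, rfl⟩ := Nat.exists_eq_add_of_le (le_of_not_ge hk)
    have l1 := h1.lvl
    have l2 := ha.lvl
    have l3 := hb.lvl
    obtain ⟨τ, h2⟩ := exists_Dns m y' (by omega)
    obtain ⟨τ', h3⟩ := exists_Dns m z' (by omega)
    have h4 := (fellow hf 2 le_rfl _ (Hor.stay _ y) h1 (ha.append h2)).wk.dV_le
    have h5 := (fellow hf 7 (by omega) _ (hb.mono (by omega)) h2 h3).wk.dV_le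
    exact ⟨τ', (dV_tri p τ τ').trans (by omega), Or.inr (dns_btw (hc.append h3))⟩

end Dev

end Vale.Agent.Tri
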